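import Vale.Agent.P166.High.Main
import Vale.Agent.P166.High.Universal
import Vale.Agent.P166.Plant.Gap

namespace Vale.Agent.Results.P166.SharpTransition

open Vale.Agent.P166 Vale.Agent.P166.Plant MeasureTheory Filter Topology

/-- Self-averaging at every temperature, and the exact annealed phase for every spectral law:
one criterion separates convergence to the annealed pressure from a strict gap below it. -/
theorem result :
    ∀ (μ : Measure ℝ) (a b : ℝ) (l : (N : ℕ) → Fin N → ℝ), Admissible μ a b l →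
      (∀ β, 0 ≤ β → Tendsto
        (fun N : ℕ => ∫ U, |pressure β (l N) U - ∫ V, pressure β (l N) V ∂haarO N| ∂haarO N)
        atTop (𝓝 0)) ∧
      (∀ β, 0 < β → (ConvergesTo β l (annealed μ b β) ↔ AnnealedCond μ b β)) ∧
      (∀ β, 0 < β → ¬ AnnealedCond μ b β → ∃ δ > 0, Tendsto
        (fun N : ℕ => (haarO N).real {U | annealed μ b β - δ ≤ pressure β (l N) U}) atTop (𝓝 0)) ∧
      (∀ β β', β' ≤ β → AnnealedCond μ b β → AnnealedCond μ b β') ∧
      (∀ β K, 0 < β → (∀ z, b < z → 1 / stieltjes μ z ^ 2 - 1 / stieltjes2 μ z ≤ K) →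
        (∀ ε > 0, ∃ z, b < z ∧ 1 ≤ (K + ε) * stieltjes μ z ^ 2) → β ^ 2 * K ≤ 1 →
        AnnealedCond μ b β) ∧
      (∀ β, 0 < β → β * (b - a) ≤ 1 → AnnealedCond μ b β) := by
  intro μ a b l A
  have hiff : ∀ β, 0 < β → (ConvergesTo β l (annealed μ b β) ↔ AnnealedCond μ b β) := by
    intro β hβ
    refine ⟨fun h => ?_, (transition A hβ).1⟩
    by_contra hc
    obtain ⟨δ, hδ, hgap⟩ := (transition A hβ).2 hc
    exact High.not_converges_of_gap hδ hgap h
  refine ⟨fun β hβ => High.self_averaging_limit A hβ, hiff, fun β hβ => (transition A hβ).2,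
    fun β β' h hc => ⟨fun γ hγ => hc.1 γ (hγ.trans_le h), fun z hz hG => hc.2 z hz (hG.trans h)⟩,
    fun β K hβ h1 h2 hK => (hiff β hβ).1 (High.high_limit A hβ h1 h2 hK), fun β hβ h => ?_⟩
  refine (hiff β hβ).1
    (High.high_limit A hβ (fun _ hz => High.curvature_le A hz) (High.edge_ge A) ?_)
  have h0 := mul_nonneg hβ.le (sub_nonneg.2 (High.pot_le A))
  calc β ^ 2 * (_ - _) ^ 2 = (β * (_ - _)) ^ 2 := (mul_pow _ _ 2).symm
    _ ≤ 1 := pow_le_one₀ h0 h

end Vale.Agent.Results.P166.SharpTransition
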