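import Mathlib
import Vale.Agent.P166.Main

namespace Vale.Agent.Results.P166.SpectralUniversality

open Vale.Agent.P166 MeasureTheory Filter Topology
open scoped NNReal

/-- At every `β ≥ 0`: two eigenvalue arrays with the same limiting spectral law and edges give
pressures with asymptotically equal laws, and deterministic limits for all finitely supported
laws imply a deterministic limit, depending only on the law, for every compactly supported law. -/
theorem result :
    ∀ β : ℝ, 0 ≤ β →
      (∀ (μ : Measure ℝ) (a b : ℝ) (l l' : (N : ℕ) → Fin N → ℝ),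
        Admissible μ a b l → Admissible μ a b l' → ∀ (L : ℝ≥0) (F : ℝ → ℝ), LipschitzWith L F →
          Tendsto (fun N => ∫ U, F (pressure β (l N) U) ∂haarO N
            - ∫ U, F (pressure β (l' N) U) ∂haarO N) atTop (𝓝 0)) ∧
      ((∀ (ν : Measure ℝ) (a b : ℝ) (l : (N : ℕ) → Fin N → ℝ), Admissible ν a b l →
          (∃ s : Finset ℝ, ν (↑s)ᶜ = 0) → ∃ c, ConvergesTo β l c) →
        ∀ (μ : Measure ℝ) (a b : ℝ), ∃ c, ∀ l : (N : ℕ) → Fin N → ℝ,
          Admissible μ a b l → ConvergesTo β l c) :=
  fun _ hβ => ⟨fun _ _ _ _ _ A A' _ _ hF => universality hβ A A' hF,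
    fun H μ a b => reduction hβ H μ a b⟩

end Vale.Agent.Results.P166.SpectralUniversality
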